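import Vale.Agent.P325.H111.K2.Stmts

/-!
# The low degree part of a function with small smoothed influences
-/

namespace Vale.Agent.P325.K2.H290

open Finset

section

variable {ι : Type} [Fintype ι] [DecidableEq ι]

theorem sg_sq (b : Bool) : sg b * sg b = 1 := by cases b <;> simp [sg]

theorem sg_not (b : Bool) : sg (!b) = - sg b := by cases b <;> simp [sg]

theorem Ex_pi (g : ι → Bool → ℝ) :
    (Ex fun x : ι → Bool => ∏ i, g i (x i)) = ∏ i, ((g i true + g i false) / 2) := by
  have h1 : ∑ x : ι → Bool, ∏ i, g i (x i) = ∏ i, ∑ b, g i b := by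
    rw [Finset.prod_univ_sum, Fintype.piFinset_univ]
  have h2 : ((Fintype.card (ι → Bool) : ℕ) : ℝ) = ∏ _i : ι, (2 : ℝ) := by
    simp [Finset.prod_const, Finset.card_univ]
  rw [Ex, h1, h2, ← Finset.prod_div_distrib]
  simp

theorem chi_eq (S : Finset ι) (x : ι → Bool) : chi S x = ∏ i, if i ∈ S then sg (x i) else 1 := by
  rw [chi, Finset.prod_ite_mem, Finset.univ_inter]

/-- The characters are orthonormal. -/
theorem Ex_chi (S T : Finset ι) : (Ex fun x => chi S x * chi T x) = if S = T then 1 else 0 := by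
  have h1 : ∀ x : ι → Bool, chi S x * chi T x =
      ∏ i, ((if i ∈ S then sg (x i) else 1) * (if i ∈ T then sg (x i) else 1)) := fun x => by
    rw [chi_eq, chi_eq, Finset.prod_mul_distrib]
  rw [Ex_congr h1, Ex_pi fun i b => (if i ∈ S then sg b else 1) * (if i ∈ T then sg b else 1)]
  split_ifs with h
  · subst h
    refine Finset.prod_eq_one fun i _ => ?_
    by_cases hi : i ∈ S <;> simp [hi, sg] 
  · obtain ⟨i, hi⟩ : ∃ i, ¬ (i ∈ S ↔ i ∈ T) := by
      by_contra h'
      push Not at h'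
      exact h (Finset.ext h')
    refine Finset.prod_eq_zero (Finset.mem_univ i) ?_
    by_cases h1 : i ∈ S <;> by_cases h2 : i ∈ T <;> simp_all [sg]

/-- The kernel of the noise operator. -/
noncomputable def ker (ρ : ℝ) (x y : ι → Bool) : ℝ := ∏ i, (1 + ρ * (sg (x i) * sg (y i)))

omit [DecidableEq ι] in
theorem ker_eq (ρ : ℝ) (x y : ι → Bool) :
    ker ρ x y = ∑ S : Finset ι, ρ ^ #S * (chi S x * chi S y) := by
  rw [ker, Finset.prod_one_add, Finset.powerset_univ]
  refine Finset.sum_congr rfl fun S _ => ?_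
  rw [Finset.prod_mul_distrib, Finset.prod_const, Finset.prod_mul_distrib]
  rfl

/-- The noise operator. -/
theorem noise (ρ : ℝ) (f : (ι → Bool) → ℝ) (x : ι → Bool) :
    ∑ S : Finset ι, ρ ^ #S * fc f S * chi S x = Ex fun y => f y * ker ρ x y := by
  have h1 : ∀ y, f y * ker ρ x y = ∑ S : Finset ι, ρ ^ #S * chi S x * (f y * chi S y) := by
    intro y
    rw [ker_eq, Finset.mul_sum]
    exact Finset.sum_congr rfl fun S _ => by ring
  rw [Ex_congr h1, Ex_sum]
  refine Finset.sum_congr rfl fun S _ => ?_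
  rw [Ex_const_mul]
  unfold fc
  ring

omit [DecidableEq ι] in
theorem ker_one (x y : ι → Bool) : ker 1 x y = if x = y then 2 ^ Fintype.card ι else 0 := by
  unfold ker
  split_ifs with h
  · subst h
    simp only [sg_sq]
    norm_num [Finset.prod_const, Finset.card_univ]
  · obtain ⟨i, hi⟩ : ∃ i, x i ≠ y i := by
      by_contra h'
      push Not at h'
      exact h (funext h')
    refine Finset.prod_eq_zero (Finset.mem_univ i) ?_
    revert hi
    cases x i <;> cases y i <;> simp [sg]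

/-- Inversion. -/
theorem inversion (f : (ι → Bool) → ℝ) (x : ι → Bool) :
    ∑ S : Finset ι, fc f S * chi S x = f x := by
  have h1 := noise 1 f x
  simp only [one_pow, one_mul] at h1
  rw [h1, Ex]
  simp only [ker_one, mul_ite, mul_zero]
  rw [Finset.sum_ite_eq, if_pos (Finset.mem_univ x)]
  simp

/-- The coefficients of a sum of characters. -/
theorem fc_sum (c : Finset ι → ℝ) (T : Finset ι) :
    fc (fun x => ∑ S : Finset ι, c S * chi S x) T = c T := by
  unfold fc
  have h1 : ∀ x : ι → Bool, (∑ S : Finset ι, c S * chi S x) * chi T x =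
      ∑ S : Finset ι, c S * (chi S x * chi T x) := fun x => by
    rw [Finset.sum_mul]
    exact Finset.sum_congr rfl fun S _ => by ring
  rw [Ex_congr h1, Ex_sum]
  simp only [Ex_const_mul, Ex_chi]
  simp

/-- The inner product with a sum of characters. -/
theorem Ex_mul_sum (f : (ι → Bool) → ℝ) (c : Finset ι → ℝ) :
    (Ex fun x => f x * ∑ S : Finset ι, c S * chi S x) = ∑ S : Finset ι, fc f S * c S := by
  have h1 : ∀ x : ι → Bool, f x * ∑ S : Finset ι, c S * chi S x =
      ∑ S : Finset ι, c S * (f x * chi S x) := fun x => by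
    rw [Finset.mul_sum]
    exact Finset.sum_congr rfl fun S _ => by ring
  rw [Ex_congr h1, Ex_sum]
  refine Finset.sum_congr rfl fun S _ => ?_
  rw [Ex_const_mul, mul_comm]
  rfl

/-! ### Flips -/

omit [Fintype ι] in
theorem flp_flp (x : ι → Bool) (i : ι) : flp (flp x i) i = x := by
  funext j
  by_cases h : j = i
  · subst h; simp [flp]
  · simp [flp, h]

/-- The flip as a permutation. -/
def flpE (i : ι) : (ι → Bool) ≃ (ι → Bool) where
  toFun x := flp x i
  invFun x := flp x i
  left_inv x := flp_flp x i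
  right_inv x := flp_flp x i

omit [Fintype ι] in
theorem chi_flp (S : Finset ι) (x : ι → Bool) (i : ι) :
    chi S (flp x i) = if i ∈ S then - chi S x else chi S x := by
  unfold chi
  split_ifs with h
  · rw [← Finset.mul_prod_erase S _ h, ← Finset.mul_prod_erase S (fun i => sg (x i)) h]
    have h1 : ∏ j ∈ S.erase i, sg (flp x i j) = ∏ j ∈ S.erase i, sg (x j) :=
      Finset.prod_congr rfl fun j hj => by rw [flp, Function.update_of_ne (Finset.ne_of_mem_erase hj)]
    rw [h1]
    simp [flp, sg_not]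
  · refine Finset.prod_congr rfl fun j hj => ?_
    have h' : j ≠ i := fun h' => h (h' ▸ hj)
    rw [flp, Function.update_of_ne h']

theorem fc_flp (f : (ι → Bool) → ℝ) (i : ι) (S : Finset ι) :
    fc (fun x => f (flp x i)) S = if i ∈ S then - fc f S else fc f S := by
  have h1 : fc (fun x => f (flp x i)) S = Ex fun x => f x * chi S (flp x i) := by
    rw [fc, ← Ex_equiv (flpE i) (fun x => f x * chi S (flp x i))]
    refine Ex_congr fun x => ?_
    show _ = f (flp x i) * chi S (flp (flp x i) i)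
    rw [flp_flp]
  rw [h1]
  split_ifs with h
  · rw [fc, ← Ex_neg]
    refine Ex_congr fun x => ?_
    rw [chi_flp, if_pos h]; ring
  · refine Ex_congr fun x => ?_
    rw [chi_flp, if_neg h]

/-! ### Averages and the Cauchy inequality -/

theorem Ex_cs {α : Type} [Fintype α] (u v : α → ℝ) :
    (Ex fun x => u x * v x) ^ 2 ≤ (Ex fun x => u x ^ 2) * Ex fun x => v x ^ 2 := by
  unfold Ex
  rw [div_pow, div_mul_div_comm, ← pow_two]
  exact div_le_div_of_nonneg_right (Finset.sum_mul_sq_le_sq_mul_sq _ _ _) (by positivity)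

/-- The noise operator does not increase the average of the norm of a vector valued function. -/
theorem Ex_norm_noise {J : Type} [Fintype J] (h : J → (ι → Bool) → ℝ) :
    (Ex fun x => Real.sqrt (∑ j, (Ex fun y => h j y * ker (1 / 2) x y) ^ 2)) ≤
      Ex fun x => Real.sqrt (∑ j, h j x ^ 2) := by
  have hker : ∀ x y : ι → Bool, 0 ≤ ker (1 / 2) x y := fun x y =>
    Finset.prod_nonneg fun i _ => by cases x i <;> cases y i <;> norm_num [sg]
  have h1 : ∀ x : ι → Bool, Real.sqrt (∑ j, (Ex fun y => h j y * ker (1 / 2) x y) ^ 2) ≤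
      Ex fun y => Real.sqrt (∑ j, h j y ^ 2) * ker (1 / 2) x y := by
    intro x
    set v : J → ℝ := fun j => Ex fun y => h j y * ker (1 / 2) x y with hv
    set s : ℝ := ∑ j, v j ^ 2 with hs
    have hs0 : 0 ≤ s := Finset.sum_nonneg fun j _ => sq_nonneg _
    have h2 : s ≤ Real.sqrt s * Ex fun y => Real.sqrt (∑ j, h j y ^ 2) * ker (1 / 2) x y := by
      have h3 : s = Ex fun y => (∑ j, v j * h j y) * ker (1 / 2) x y := by
        have h4 : ∀ y : ι → Bool, (∑ j, v j * h j y) * ker (1 / 2) x y =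
            ∑ j, v j * (h j y * ker (1 / 2) x y) := fun y => by
          rw [Finset.sum_mul]
          exact Finset.sum_congr rfl fun j _ => by ring
        rw [Ex_congr h4, Ex_sum, hs]
        refine Finset.sum_congr rfl fun j _ => ?_
        rw [Ex_const_mul, pow_two]
      rw [← Ex_const_mul]
      conv_lhs => rw [h3]
      refine Ex_mono fun y => ?_
      rw [← mul_assoc]
      exact mul_le_mul_of_nonneg_right (Real.sum_mul_le_sqrt_mul_sqrt _ _ _) (hker x y)
    have h5 : Real.sqrt s * Real.sqrt s = s := Real.mul_self_sqrt hs0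
    have h6 : 0 ≤ Ex fun y => Real.sqrt (∑ j, h j y ^ 2) * ker (1 / 2) x y :=
      Ex_nonneg fun y => mul_nonneg (Real.sqrt_nonneg _) (hker x y)
    rcases eq_or_lt_of_le (Real.sqrt_nonneg s) with h7 | h7
    · rw [← h7]; exact h6
    · refine le_of_mul_le_mul_left ?_ h7
      rw [h5]; exact h2
  refine (Ex_mono h1).trans ?_
  rw [Ex_comm fun x y => Real.sqrt (∑ j, h j y ^ 2) * ker (1 / 2) x y]
  refine Ex_mono fun y => ?_
  rw [Ex_const_mul]
  have h8 : (Ex fun x : ι → Bool => ker (1 / 2) x y) = 1 := by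
    unfold ker
    rw [Ex_pi fun i b => 1 + 1 / 2 * (sg b * sg (y i))]
    refine Finset.prod_eq_one fun i _ => ?_
    cases y i <;> norm_num [sg]
  rw [h8, mul_one]

/-! ### The main inequality for one vector valued function -/

theorem main_vec (hB : BonamiThm) {J : Type} [Fintype J] (h : J → (ι → Bool) → ℝ) :
    (∑ j, ∑ S : Finset ι, (1 / 12) ^ #S * fc (h j) S ^ 2) ≤
      (Ex fun x => Real.sqrt (∑ j, h j x ^ 2)) *
        Real.sqrt (∑ j, ∑ S : Finset ι, (1 / 4) ^ #S * fc (h j) S ^ 2) := by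
  set ρ : ℝ := 1 / Real.sqrt 3 with hρ
  have hρ2 : ρ * ρ = 1 / 3 := by
    rw [hρ, div_mul_div_comm, Real.mul_self_sqrt (by norm_num)]; norm_num
  set c : J → Finset ι → ℝ := fun j S => (1 / 2) ^ #S * fc (h j) S with hc
  set F : J → (ι → Bool) → ℝ := fun j x => ∑ S : Finset ι, c j S * chi S x with hF
  set W : J → (ι → Bool) → ℝ := fun j x => ∑ S : Finset ι, (ρ ^ #S * c j S) * chi S x with hW
  set V : J → (ι → Bool) → ℝ := fun j x => ∑ S : Finset ι, (ρ ^ #S * (ρ ^ #S * c j S)) * chi S x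
    with hV
  set Q : ℝ := ∑ j, ∑ S : Finset ι, (1 / 12) ^ #S * fc (h j) S ^ 2 with hQ
  have hQ0 : 0 ≤ Q := Finset.sum_nonneg fun j _ => Finset.sum_nonneg fun S _ => by positivity
  have hterm : ∀ j (S : Finset ι), (ρ ^ #S * c j S) * (ρ ^ #S * c j S) =
      (1 / 12) ^ #S * fc (h j) S ^ 2 := fun j S => by
    have h1 : ρ ^ #S * ρ ^ #S = (1 / 3) ^ #S := by rw [← mul_pow, hρ2]
    have h2 : ((1 : ℝ) / 12) ^ #S = (1 / 3) ^ #S * ((1 / 2) ^ #S * (1 / 2) ^ #S) := by
      rw [← mul_pow, ← mul_pow]; norm_num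
    rw [h2, ← h1, hc]
    ring
  -- the Bonami inequality
  have hb : (Ex fun x => (∑ j, V j x ^ 2) ^ 2) ≤ Q ^ 2 := by
    have h1 := hB ι J W
    have h2 : ∀ j (S : Finset ι), fc (W j) S = ρ ^ #S * c j S := fun j S => fc_sum _ S
    have h3 : (Ex fun x => ∑ j, W j x ^ 2) = Q := by
      rw [Ex_sum, hQ]
      refine Finset.sum_congr rfl fun j _ => ?_
      have h4 : (Ex fun x => W j x ^ 2) = Ex fun x => W j x * ∑ S : Finset ι,
          (ρ ^ #S * c j S) * chi S x := Ex_congr fun x => by rw [pow_two]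
      rw [h4, Ex_mul_sum]
      exact Finset.sum_congr rfl fun S _ => by rw [h2, hterm]
    rw [h3] at h1
    simp only [h2] at h1
    exact h1
  -- the inner product
  have hin : (Ex fun x => ∑ j, F j x * V j x) = Q := by
    rw [Ex_sum, hQ]
    refine Finset.sum_congr rfl fun j _ => ?_
    rw [hV]
    simp only []
    rw [Ex_mul_sum]
    refine Finset.sum_congr rfl fun S _ => ?_
    rw [← hterm, hF]
    simp only []
    rw [fc_sum]
    ring
  set nF : (ι → Bool) → ℝ := fun x => Real.sqrt (∑ j, F j x ^ 2) with hnF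
  set nV : (ι → Bool) → ℝ := fun x => Real.sqrt (∑ j, V j x ^ 2) with hnV
  have hnF0 : ∀ x, 0 ≤ nF x := fun x => Real.sqrt_nonneg _
  have hnV0 : ∀ x, 0 ≤ nV x := fun x => Real.sqrt_nonneg _
  have hnF2 : ∀ x, nF x ^ 2 = ∑ j, F j x ^ 2 := fun x =>
    Real.sq_sqrt (Finset.sum_nonneg fun j _ => sq_nonneg _)
  have hnV2 : ∀ x, nV x ^ 2 = ∑ j, V j x ^ 2 := fun x =>
    Real.sq_sqrt (Finset.sum_nonneg fun j _ => sq_nonneg _)
  set a : ℝ := Ex nF with ha
  set b : ℝ := ∑ j, ∑ S : Finset ι, (1 / 4) ^ #S * fc (h j) S ^ 2 with hb'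
  have ha0 : 0 ≤ a := Ex_nonneg hnF0
  have hb0 : 0 ≤ b := Finset.sum_nonneg fun j _ => Finset.sum_nonneg fun S _ => by positivity
  have hEb : (Ex fun x => nF x ^ 2) = b := by
    simp only [hnF2]
    rw [Ex_sum, hb']
    refine Finset.sum_congr rfl fun j _ => ?_
    have h4 : (Ex fun x => F j x ^ 2) = Ex fun x => F j x * ∑ S : Finset ι, c j S * chi S x :=
      Ex_congr fun x => by rw [pow_two]
    rw [h4, Ex_mul_sum]
    refine Finset.sum_congr rfl fun S _ => ?_
    rw [hF]
    simp only []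
    rw [fc_sum, hc]
    have h5 : ((1 : ℝ) / 4) ^ #S = (1 / 2) ^ #S * (1 / 2) ^ #S := by
      rw [← mul_pow]; norm_num
    rw [h5]
    ring
  -- the two Cauchy inequalities
  have h1 : Q ≤ Ex fun x => nF x * nV x := by
    rw [← hin]
    exact Ex_mono fun x => Real.sum_mul_le_sqrt_mul_sqrt _ _ _
  have h2 : (Ex fun x => nF x * nV x) ^ 2 ≤ a * Ex fun x => nF x * nV x ^ 2 := by
    have h3 := Ex_cs (fun x => Real.sqrt (nF x)) fun x => Real.sqrt (nF x) * nV x
    have h4 : ∀ x, Real.sqrt (nF x) * (Real.sqrt (nF x) * nV x) = nF x * nV x := fun x => by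
      rw [← mul_assoc, Real.mul_self_sqrt (hnF0 x)]
    have h5 : ∀ x, Real.sqrt (nF x) ^ 2 = nF x := fun x => Real.sq_sqrt (hnF0 x)
    simp only [h4, mul_pow, h5] at h3
    exact h3
  have h3 : (Ex fun x => nF x * nV x ^ 2) ^ 2 ≤ b * Q ^ 2 := by
    refine (Ex_cs nF fun x => nV x ^ 2).trans ?_
    rw [hEb]
    refine mul_le_mul_of_nonneg_left ?_ hb0
    simp only [hnV2]
    exact hb
  have h4 : (Ex fun x => nF x * nV x ^ 2) ≤ Real.sqrt b * Q := by
    refine abs_le_of_sq_le_sq' ?_ (by positivity) |>.2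
    rw [mul_pow, Real.sq_sqrt hb0]
    exact h3
  have h5 : Q * Q ≤ a * Real.sqrt b * Q := by
    calc Q * Q ≤ (Ex fun x => nF x * nV x) ^ 2 := by
          rw [pow_two]; exact mul_self_le_mul_self hQ0 h1
      _ ≤ _ := h2
      _ ≤ a * (Real.sqrt b * Q) := mul_le_mul_of_nonneg_left h4 ha0
      _ = _ := by ring
  have h6 : Q ≤ a * Real.sqrt b := by
    rcases eq_or_lt_of_le hQ0 with h7 | h7
    · rw [← h7]; positivity
    · exact le_of_mul_le_mul_right h5 h7
  refine h6.trans (mul_le_mul_of_nonneg_right ?_ (Real.sqrt_nonneg _))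
  have h7 : a = Ex fun x => Real.sqrt (∑ j, (Ex fun y => h j y * ker (1 / 2) x y) ^ 2) := by
    rw [ha]
    refine Ex_congr fun x => ?_
    rw [hnF]
    simp only []
    congr 1
    refine Finset.sum_congr rfl fun j _ => ?_
    rw [← noise (1 / 2) (h j) x]
  rw [h7]
  exact Ex_norm_noise h

/-! ### The derivatives in the directions of a group -/

section

variable {G : Type} [DecidableEq G]

/-- The derivatives in the directions of a group. -/
noncomputable def der (grp : ι → G) (f : (ι → Bool) → ℝ) (g : G) (i : ι) (x : ι → Bool) : ℝ :=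
  if grp i = g then (f x - f (flp x i)) / 2 else 0

theorem fc_der (grp : ι → G) (f : (ι → Bool) → ℝ) (g : G) (i : ι) (S : Finset ι) :
    fc (der grp f g i) S = if grp i = g ∧ i ∈ S then fc f S else 0 := by
  by_cases h : grp i = g
  · have h1 : fc (der grp f g i) S = (fc f S - fc (fun x => f (flp x i)) S) / 2 := by
      unfold fc
      rw [← Ex_sub, div_eq_mul_inv, ← Ex_mul_const]
      refine Ex_congr fun x => ?_
      rw [der, if_pos h]
      ring
    rw [h1, fc_flp]
    by_cases h2 : i ∈ S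
    · rw [if_pos h2, if_pos ⟨h, h2⟩]; ring
    · rw [if_neg h2, if_neg fun h3 => h2 h3.2]; ring
  · rw [if_neg fun h3 => h h3.1]
    unfold fc
    have h1 : ∀ x, der grp f g i x * chi S x = 0 * chi S x := fun x => by rw [der, if_neg h]
    rw [Ex_congr h1, Ex_const_mul, zero_mul]

theorem sum_der (grp : ι → G) (f : (ι → Bool) → ℝ) (g : G) (t : ℝ) :
    (∑ i, ∑ S : Finset ι, t ^ #S * fc (der grp f g i) S ^ 2) =
      ∑ S : Finset ι, (#{i ∈ S | grp i = g} : ℝ) * (t ^ #S * fc f S ^ 2) := by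
  rw [Finset.sum_comm]
  refine Finset.sum_congr rfl fun S _ => ?_
  have h1 : ∀ i, t ^ #S * fc (der grp f g i) S ^ 2 =
      (if i ∈ S.filter (fun i => grp i = g) then (1 : ℝ) else 0) * (t ^ #S * fc f S ^ 2) := by
    intro i
    rw [fc_der]
    by_cases h : grp i = g ∧ i ∈ S
    · rw [if_pos h, if_pos (Finset.mem_filter.2 h.symm), one_mul]
    · rw [if_neg h, if_neg fun h' => h (Finset.mem_filter.1 h').symm]; ring
  simp only [h1]
  rw [← Finset.sum_mul, Finset.sum_boole]
  congr 2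
  congr 1
  ext i
  simp

theorem norm_der (grp : ι → G) (f : (ι → Bool) → ℝ) (hf : IsSign f) (g : G) (x : ι → Bool) :
    ∑ i, der grp f g i x ^ 2 = #{i ∈ piv f x | grp i = g} := by
  have h1 : ∀ i, der grp f g i x ^ 2 =
      if i ∈ (piv f x).filter (fun i => grp i = g) then (1 : ℝ) else 0 := by
    intro i
    have hp : i ∈ piv f x ↔ f (flp x i) ≠ f x := by
      rw [piv, Finset.mem_filter]
      exact and_iff_right (Finset.mem_univ _)
    rw [der]
    by_cases h : grp i = g
    · by_cases h2 : f (flp x i) = f x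
      · rw [if_pos h, if_neg fun h3 => hp.1 (Finset.mem_filter.1 h3).1 h2, h2]; ring
      · rw [if_pos h, if_pos (Finset.mem_filter.2 ⟨hp.2 h2, h⟩)]
        rcases hf x with h3 | h3 <;> rcases hf (flp x i) with h4 | h4
        · exact absurd (h4.trans h3.symm) h2
        · rw [h3, h4]; norm_num
        · rw [h3, h4]; norm_num
        · exact absurd (h4.trans h3.symm) h2
    · have h3 : i ∉ (piv f x).filter (fun i => grp i = g) := fun h3 => h (Finset.mem_filter.1 h3).2
      rw [if_neg h, if_neg h3]; ring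
  simp only [h1]
  rw [Finset.sum_boole]
  congr 2
  ext i
  simp

end

/-- The quantity `s * 2 ^ (- s)` is at most one half. -/
theorem nat_le_half (m s : ℕ) (h : m ≤ s) (hm : 1 ≤ m) :
    (m : ℝ) * (1 / 4) ^ s ≤ 1 / 2 * (1 / 2) ^ s := by
  have h1 : s + 1 ≤ 2 ^ s := Nat.lt_two_pow_self
  have h2 : ∀ s : ℕ, 1 ≤ s → 2 * s ≤ 2 ^ s := by
    intro s hs
    induction s, hs using Nat.le_induction with
    | base => norm_num
    | succ n hn ih => rw [pow_succ]; omega
  have h3 : (2 : ℝ) * m ≤ 2 ^ s := by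
    have := h2 s (hm.trans h)
    exact_mod_cast (Nat.mul_le_mul_left 2 h).trans this
  have h4 : ((1 : ℝ) / 4) ^ s = (1 / 2) ^ s * (1 / 2) ^ s := by rw [← mul_pow]; norm_num
  have h5 : (2 : ℝ) ^ s * (1 / 2) ^ s = 1 := by rw [← mul_pow]; norm_num
  have h6 : (0 : ℝ) < (1 / 2) ^ s := by positivity
  rw [h4]
  nlinarith [mul_le_mul_of_nonneg_right h3 h6.le]

end

end Vale.Agent.P325.K2.H290

namespace Vale.Agent.P325.K2

open Finset

/-- The low degree part is controlled by the energy and the smoothed influences. -/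
theorem lowThm (hB : BonamiThm) : LowThm := by
  classical
  refine ⟨1, zero_le_one, ?_⟩
  intro ι G _ _ _ _ grp f hf k τ hτ H hH
  have key : ∀ g ∈ H, ∑ S : Finset ι, (#{i ∈ S | grp i = g} : ℝ) * ((1 / 12) ^ #S * fc f S ^ 2) ≤
      (Ex fun x => Real.sqrt #{i ∈ piv f x | grp i = g}) * Real.sqrt τ := by
    intro g hg
    have h1 := H290.main_vec hB (H290.der grp f g)
    rw [H290.sum_der, H290.sum_der] at h1
    simp only [H290.norm_der grp f hf g] at h1
    refine h1.trans (mul_le_mul_of_nonneg_left (Real.sqrt_le_sqrt ?_)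
      (Ex_nonneg fun x => Real.sqrt_nonneg _))
    refine le_trans ?_ (hH g hg)
    unfold sInf
    refine Finset.sum_le_sum fun S _ => ?_
    split_ifs with h2
    · have h3 : #{i ∈ S | grp i = g} = 0 := by
        rw [Finset.card_eq_zero, Finset.filter_eq_empty_iff]
        intro i hi hi'
        exact Finset.disjoint_left.1 h2 hi (Finset.mem_filter.2 ⟨Finset.mem_univ _, hi'⟩)
      rw [h3]
      simp
    · have h3 : 1 ≤ #{i ∈ S | grp i = g} := by
        rw [Nat.one_le_iff_ne_zero, ← Nat.pos_iff_ne_zero, Finset.card_pos]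
        obtain ⟨i, hi, hi'⟩ := Finset.not_disjoint_iff.1 h2
        exact ⟨i, Finset.mem_filter.2 ⟨hi, (Finset.mem_filter.1 hi').2⟩⟩
      have h4 := H290.nat_le_half _ _ (Finset.card_filter_le S fun i => grp i = g) h3
      have h5 : (0 : ℝ) ≤ fc f S ^ 2 := sq_nonneg _
      have h6 : (0 : ℝ) ≤ (1 / 2) ^ #S := by positivity
      calc (#{i ∈ S | grp i = g} : ℝ) * ((1 / 4) ^ #S * fc f S ^ 2)
          = ((#{i ∈ S | grp i = g} : ℝ) * (1 / 4) ^ #S) * fc f S ^ 2 := by ring
        _ ≤ (1 / 2 * (1 / 2) ^ #S) * fc f S ^ 2 := mul_le_mul_of_nonneg_right h4 h5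
        _ ≤ (1 / 2) ^ #S * fc f S ^ 2 := mul_le_mul_of_nonneg_right (by linarith) h5
  -- sum over the groups
  have hcard : ∀ S : Finset ι, (#{i ∈ S | grp i ∈ H} : ℝ) = ∑ g ∈ H, (#{i ∈ S | grp i = g} : ℝ) := by
    intro S
    have h1 : #{i ∈ S | grp i ∈ H} = ∑ g ∈ H, #{i ∈ S | grp i = g} := by
      rw [Finset.card_eq_sum_card_fiberwise (s := S.filter fun i => grp i ∈ H) (f := grp) (t := H)
        (fun i hi => Finset.mem_coe.2 (Finset.mem_filter.1 (Finset.mem_coe.1 hi)).2)]
      refine Finset.sum_congr rfl fun g hg => ?_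
      congr 1
      ext i
      simp only [Finset.mem_filter]
      exact ⟨fun h => ⟨h.1.1, h.2⟩, fun h => ⟨⟨h.1, h.2 ▸ hg⟩, h.2⟩⟩
    rw [h1]
    push_cast
    rfl
  have hsum : ∑ S : Finset ι, (#{i ∈ S | grp i ∈ H} : ℝ) * ((1 / 12) ^ #S * fc f S ^ 2) ≤
      energy grp f * Real.sqrt τ := by
    have h1 : ∑ S : Finset ι, (#{i ∈ S | grp i ∈ H} : ℝ) * ((1 / 12) ^ #S * fc f S ^ 2) =
        ∑ g ∈ H, ∑ S : Finset ι, (#{i ∈ S | grp i = g} : ℝ) * ((1 / 12) ^ #S * fc f S ^ 2) := by
      rw [Finset.sum_comm]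
      refine Finset.sum_congr rfl fun S _ => ?_
      rw [hcard, Finset.sum_mul]
    rw [h1]
    refine (Finset.sum_le_sum key).trans ?_
    rw [← Finset.sum_mul, ← Ex_sum]
    refine mul_le_mul_of_nonneg_right ?_ (Real.sqrt_nonneg _)
    unfold energy
    refine Ex_mono fun x => ?_
    refine (Finset.sum_le_univ_sum_of_nonneg fun g => Real.sqrt_nonneg _).trans (le_of_eq ?_)
    refine Finset.sum_congr rfl fun g _ => ?_
    have h2 : (Finset.filter (fun i => grp i = g) (piv f x)).card =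
      (@Finset.filter ι (fun i => grp i = g) (fun _ => Classical.propDecidable _) (piv f x)).card :=
      by
        congr 1
        ext i
        simp only [Finset.mem_filter]
    rw [h2]
  have h12 : (0 : ℝ) < 12 ^ k := by positivity
  calc (∑ S : Finset ι, if #S ≤ k then (#{i ∈ S | grp i ∈ H} : ℝ) * fc f S ^ 2 else 0)
      ≤ ∑ S : Finset ι, 12 ^ k * ((#{i ∈ S | grp i ∈ H} : ℝ) * ((1 / 12) ^ #S * fc f S ^ 2)) := by
        refine Finset.sum_le_sum fun S _ => ?_
        split_ifs with h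
        · have h1 : (1 : ℝ) ≤ 12 ^ k * (1 / 12) ^ #S := by
            rw [one_div, inv_pow, ← div_eq_mul_inv, le_div_iff₀ (by positivity), one_mul]
            exact pow_le_pow_right₀ (by norm_num) h
          have h2 : (0 : ℝ) ≤ (#{i ∈ S | grp i ∈ H} : ℝ) * fc f S ^ 2 := by positivity
          nlinarith
        · positivity
    _ = 12 ^ k * ∑ S : Finset ι, (#{i ∈ S | grp i ∈ H} : ℝ) * ((1 / 12) ^ #S * fc f S ^ 2) := by
        rw [Finset.mul_sum]
    _ ≤ 12 ^ k * (energy grp f * Real.sqrt τ) := mul_le_mul_of_nonneg_left hsum h12.le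
    _ = 1 * 12 ^ k * energy grp f * Real.sqrt τ := by ring

end Vale.Agent.P325.K2
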